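import Vale.Agent.P014T.Lc.V2
import Vale.Agent.P014U.Sh.Lp
import Vale.Agent.P014U.Ah.Vl
import Vale.Agent.P014U.Ba.Dv

/-! # P014U, local points: the points fixed by a decomposition group -/

set_option linter.all false

open scoped Classical
open WeierstrassCurve WeierstrassCurve.Affine P179W NumberField

noncomputable section

namespace Vale.Agent.P014U.Lc

export Vale.Agent.P014T.Lc (Ns E0 E1 Rd zf zf_zero bas zf_lt zf_eq_zero v_neg add_le zf_sub zf_inj Fl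
  nsmul_le near nv Fo v_nsmul v_pow Lg ex_lg surj red_onto idx0 idx1 card_pp split_pp Vl fin1 Wq Wp cfp
  rp rdp tam_eq tam_good dp tam_ne p_pos idx tm tm_eq tm_not tm_good tam_prod tam_prod' np np_pos ep
  lf_p lf_rel lf_all ex_int ex_min jm jm_rg cfs ell vol_sh tn_ne val_md val_sh md_sh sh_ne
  vol_ch vol_un min_le min_un vol_md)

variable [Pp]

open Vale.Agent.P014 Vale.Agent.P022D.Loc2 Vale.Agent.P014T.Sm Vale.Agent.P014T.Vc
open Vale.Agent.P022 (Qb)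
open Vale.Agent.P022D.W (dec)
open Vale.Agent.P022E.GW (Ov)
open Vale.Agent.P014T.Wm (Fx)
open Vale.Agent.P014U.Ba (Tp)
open Vale.Agent.P014U.Ah (Ind am i0)
open Vale.Agent.P014U.X4S.Ga (K)
open P004M.TE (Cv Pt pa ga ga_mul ga_one pa_some ga_some)

variable {A B : ℤ} {u r s t : ℚ}

section

variable {E : WeierstrassCurve ℚ} (h : Md E A B u r s t) {p : ℕ} [hp : Fact p.Prime]

/-- **the fixed points of a decomposition group are dense in the local points** -/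
theorem ex_br [E.IsElliptic] {g₀ : GQ} {D : Subgroup GQ}
    (hD : ∀ g, g ∈ D ↔ ∃ τ, jj p τ = g₀ * g * g₀⁻¹) :
    ∃ φ : Fx A B D →+ (WeierstrassCurve.baseChange E ℚ_[p]).toAffine.Point,
      (∀ y, iso h _ (jm E p (φ y)) = pa (io p) (ga g₀ y)) ∧ Function.Injective φ ∧
      (∀ (k : ℕ) R, pp ^ k • R ∈ φ.range → R ∈ φ.range) ∧ ∀ R, ∃ y R', R = φ y + pp • R' := by
  let n := (Point.map (W' := E) (io p)).comp ((iso h Qb).symm.toAddMonoidHom.comp (ga g₀))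
  have n1 : ∀ S, n (ga g₀⁻¹ (iso h Qb S)) = Point.map (W' := E) (io p) S := fun S => by
    simp [n, ← ga_mul, ga_one]
  have n2 : ∀ Q, iso h _ (n Q) = pa (io p) (ga g₀ Q) := fun Q => by
    simp [n, iso_map]
  have n3 : ∀ g Q Q' : _, ga g Q = ga g Q' → Q = (Q' : Pt A B) := fun g Q Q' e => by
    simpa [← ga_mul, ga_one] using congrArg (ga g⁻¹) e
  have n4 : Function.Injective n := fun a b e =>
    n3 _ _ _ (P004M.TE.pa_inj _ (by rw [← n2, ← n2, e]))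
  have n5 : ∀ τ Q, Sh.Lp.tm E τ (n Q) = n (ga (g₀⁻¹ * jj p τ * g₀) Q) := fun τ Q => by
    refine (Sh.Lp.mp_act (io_jj p τ) _).symm.trans (congrArg _ ((iso h Qb).injective ?_))
    simp [iso_act, ← ga_mul, mul_assoc]
  have k : ∀ Q, Q ∈ Fx A B D ↔ ∃ R, jm E p R = n Q := fun Q => by
    rw [← jm_rg]
    refine ⟨fun a τ => by rw [n5, a _ ((hD _).2 ⟨τ, by group⟩)], fun a g c => n4 ?_⟩
    obtain ⟨τ, e⟩ := (hD g).1 c
    rw [← a τ, n5, e]
    congr 2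
    group
  have i : Function.Injective (jm E p) := Point.map_injective _
  choose f hf using fun y : Fx A B D => (k y).1 y.2
  have m : ∀ R S, jm E p R = Point.map (W' := E) (io p) S → ∃ y, f y = R := fun R S e =>
    ⟨⟨_, (k _).2 ⟨R, e.trans (n1 S).symm⟩⟩, i ((hf _).trans ((n1 S).trans e.symm))⟩
  refine ⟨AddMonoidHom.mk' f fun a b => i (by rw [map_add, hf, hf, hf, ← map_add]; rfl),
    fun y => (congrArg _ (hf y)).trans (n2 y), fun a b e => Subtype.ext (n4 ?_),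
    fun j R e => ?_, fun R => ?_⟩
  · rw [← hf, ← hf]
    exact congrArg _ e
  · obtain ⟨y, e⟩ := e
    obtain ⟨S, c⟩ := Sh.Lp.of_pow (io p) j (R := jm E p R) ⟨_, by
      rw [← map_nsmul, ← e]; exact (hf y).symm⟩
    exact m R S c.symm
  · obtain ⟨S, T, a, b⟩ := Sh.Lp.base (jm_rg.2 ⟨R, rfl⟩)
    obtain ⟨R', rfl⟩ := jm_rg.1 a
    obtain ⟨y, c⟩ := m (R - pp • R') S (by rw [map_sub, map_nsmul, b, add_sub_cancel_right])
    exact ⟨y, R', (eq_sub_iff_add_eq.1 c).symm⟩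

end

section

variable {Y G : Type} [AddCommGroup Y] [AddCommGroup G] {φ : Y →+ G} (i : Function.Injective φ)
  (c : ∀ (k : ℕ) R, pp ^ k • R ∈ φ.range → R ∈ φ.range)
include i c

theorem br_card : Nat.card (Tp Y) = Nat.card {y : G // ∃ k : ℕ, pp ^ k • y = 0} :=
  Nat.card_congr (Equiv.ofBijective (fun y => ⟨φ y.1, y.2.imp fun k e => by
    rw [← map_nsmul, e, map_zero]⟩) ⟨fun a b e => Subtype.ext (i (congrArg Subtype.val e :)),
      fun ⟨R, k, e⟩ => (c k R (e ▸ zero_mem _)).elim fun y m =>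
        ⟨⟨y, k, i (by rw [map_nsmul, m, e, map_zero])⟩, Subtype.ext m⟩⟩)

theorem br_sat {y : Y} (h : ∃ a b, (∃ k : ℕ, pp ^ k • a = 0) ∧ φ y = a + pp • b) :
    ∃ t ∈ Tp Y, ∃ y', y = t + pp • y' := by
  obtain ⟨a, b, ⟨k, e⟩, m⟩ := h
  obtain ⟨a, rfl⟩ := c k a (e ▸ zero_mem _)
  obtain ⟨b, rfl⟩ := c 1 b ⟨y - a, by rw [map_sub, m, add_sub_cancel_left, pow_one]⟩
  exact ⟨a, ⟨k, i (by rw [map_nsmul, e, map_zero])⟩, b, i (by rw [m, map_add, map_nsmul])⟩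

end

/-- `lg` is the logarithm of the short model -/
def Lk (ι : Qb →+* ℂ_[pp]) {D : Subgroup GQ} (lg : Fx A B D →+ K) : Prop :=
  ∀ L, Lg pp (Cv ℂ_[pp] (A : ℚ) (B : ℚ)) L → ∀ y, am (lg y) = L (pa ι.toRatAlgHom y)

theorem ex_lgs (A B : ℤ) : ∃ L, Lg pp (Cv ℂ_[pp] (A : ℚ) (B : ℚ)) L :=
  ex_lg (cfs _ A B) pp_ne (by exact_mod_cast Ah.two_lt)

theorem Lk.uniq {ι : Qb →+* ℂ_[pp]} {D : Subgroup GQ} {l l' : Fx A B D →+ K} (h : Lk ι l)
    (h' : Lk ι l') : l = l' :=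
  (ex_lgs A B).elim fun L k => AddMonoidHom.ext fun y => am.injective ((h L k y).trans (h' L k y).symm)

variable {W : WeierstrassCurve ℤ} (hΔ : W.Δ ≠ 0) (h : Md (Wq W) A B u r s t) {P : Ideal (𝓞 Qb)}
include hΔ

include h

/-- **the other primes** -/
theorem odd {p : ℕ} (o : Ov p P) (h2 : p ≠ pp) :
    Nat.card (Tp (Fx A B (dec P))) = pp ^ padicValNat pp (tm (Wq W) p * np W p) ∧
      ∀ y : Fx A B (dec P), ∃ t ∈ Tp (Fx A B (dec P)), ∃ y', y = t + pp • y' := by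
  have hp := Fact.mk o.1
  have := ell hΔ
  obtain ⟨g, rfl⟩ := P022E.GW.Tg.trans Sh.Lp.ov_PP o
  obtain ⟨φ, -, i, c, -⟩ := ex_br h (p := p) (g₀ := g⁻¹) (D := dec _) fun x => by
    rw [← range_jj]
    exact ⟨fun k y => by
      rw [mul_smul, mul_smul, ← Ideal.mem_pointwise_smul_iff_inv_smul_mem, k,
        Ideal.mem_pointwise_smul_iff_inv_smul_mem, inv_inv, inv_smul_smul], fun k y => by
      rw [Ideal.mem_pointwise_smul_iff_inv_smul_mem, Ideal.mem_pointwise_smul_iff_inv_smul_mem,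
        ← k (g⁻¹ • y), mul_smul, mul_smul, inv_inv, smul_inv_smul]⟩
  obtain ⟨l, hl⟩ := ex_lg (cfp W p) o.1.ne_zero Padic.norm_p_lt_one
  obtain ⟨y, -, b, d, e⟩ := hl.vol hΔ pp
  rw [if_neg h2.symm, mul_one, ← br_card i c, ← tm_eq] at e
  refine ⟨by exact_mod_cast e, fun y => br_sat i c (d _ ((b _).trans_eq ?_))⟩
  rw [Padic.norm_natCast_eq_one_iff.2 ((Nat.coprime_primes o.1 pp_prime).2 h2), one_mul]

/-- **the prime `pp`** -/
theorem two {ι : Qb →+* ℂ_[pp]} (hι : Ind ι P) : ∃ (lg : Fx A B (dec P) →+ K) (y₀ : _), Lk ι lg ∧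
    (∀ y, lg y = 0 ↔ IsOfFinAddOrder y) ∧ lg y₀ ≠ 0 ∧ (∀ y, ‖lg y‖ ≤ ‖lg y₀‖) ∧
    (∀ y, ‖lg y‖ < ‖lg y₀‖ → ∃ t ∈ Tp (Fx A B (dec P)), ∃ y', y = t + pp • y') ∧
    (Nat.card (Tp (Fx A B (dec P))) : ℝ) * (‖(u : K) * lg y₀‖ * pp) =
      pp ^ padicValNat pp (tm (Wq W) pp * np W pp) := by
  have := ell hΔ
  obtain ⟨g, hg⟩ := Ah.ex_s ι
  obtain ⟨φ, a, i, c, j⟩ := ex_br h (p := pp) fun x => hι.dec_jj hg
  obtain ⟨l, hl⟩ := ex_lg (cfp W pp) pp_ne Padic.norm_p_lt_one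
  obtain ⟨y, y0, b, d, e⟩ := hl.vol hΔ pp
  obtain ⟨y, R, rfl⟩ := j y
  have u0 : (u : K) ≠ 0 := Rat.cast_ne_zero.2 h.ne
  have u1 := norm_pos_iff.2 (inv_ne_zero u0)
  have n : ‖l (φ y + pp • R)‖ = ‖l (φ y)‖ := by
    have : ‖l (pp • R)‖ < ‖l (φ y + pp • R)‖ := by
      rw [map_nsmul, nsmul_eq_mul, norm_mul]
      exact (mul_le_mul_of_nonneg_left (b R) (norm_nonneg _)).trans_lt
        (mul_lt_of_lt_one_left (norm_pos_iff.2 y0) Padic.norm_p_lt_one)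
    have := (nv K).map_sub_eq_of_lt_left (show nv K _ < nv K _ from this)
    rw [← map_sub, add_sub_cancel_right] at this
    exact congrArg NNReal.toReal this.symm
  rw [← norm_pos_iff] at y0
  rw [n] at b d e y0
  let lg := (AddMonoidHom.mulLeft (u : K)⁻¹).comp (l.comp φ)
  have f : ∀ y, lg y = (u : K)⁻¹ * l (φ y) := fun _ => rfl
  refine ⟨lg, y, fun L hL x => ?_, fun x => ?_, mul_ne_zero (inv_ne_zero u0) (norm_pos_iff.1 y0),
    fun x => ?_, fun x k => br_sat i c (d _ ?_), ?_⟩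
  · have H : Ch ((Wp W pp).map am) (Cv ℂ_[pp] (A : ℚ) (B : ℚ)) u r s t := by
      have := Md.ch h ℂ_[pp]
      simp only [eq_ratCast] at this
      rwa [show (Wp W pp).map am = _ from WeierstrassCurve.map_map .., RingHom.ext_rat (am.comp _)]
    have V := hl.vl hΔ
    have m := AddSubgroup.nsmul_index_mem (Fo (cfp W pp) _ (p_pos pp)) (φ x)
    have k := hl.comp (cfp W pp) (cfs _ A B) Ah.nrm_am H hL Padic.norm_p_lt_one m.1 m.2
    have e1 : vm am H (φ x) = pa ι.toRatAlgHom x := by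
      have := a x
      generalize φ x = R at this
      rcases x with ⟨_ | ⟨x₁, x₂, n₁⟩, hx⟩ <;> rcases R with _ | ⟨z₁, z₂, n₂⟩
      · exact (map_zero _).symm
      · cases this.trans ((congrArg _ (map_zero _)).trans (map_zero _))
      · rw [ga_some, pa_some] at this
        cases this
      · rw [ga_some, pa_some] at this
        have q := Point.some.inj this
        rw [pa_some, vm_some]
        congr 1
        · simpa [← IsScalarTower.algebraMap_apply] using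
            (congrArg (algebraMap (PadicAlgCl pp) ℂ_[pp]) q.1).trans (hg x₁)
        · simpa [← IsScalarTower.algebraMap_apply] using
            (congrArg (algebraMap (PadicAlgCl pp) ℂ_[pp]) q.2).trans (hg x₂)
    rw [map_nsmul, map_nsmul, map_nsmul, map_nsmul, e1, mul_smul_comm] at k
    rw [f, map_mul, map_inv₀, map_ratCast, ← smul_right_injective _ V.fin k,
      inv_mul_cancel_left₀ (Rat.cast_ne_zero.2 h.ne)]
  · rw [f, mul_eq_zero_iff_left (inv_ne_zero u0), (hl.vl hΔ).ker, i.isOfFinAddOrder_iff]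
  · rw [f, f, norm_mul, norm_mul]
    exact mul_le_mul_of_nonneg_left (b _) u1.le
  · rw [f, f, norm_mul, norm_mul, mul_lt_mul_iff_right₀ u1,
      Padic.norm_eq_zpow_neg_valuation (norm_pos_iff.1 y0)] at k
    rw [Padic.norm_eq_zpow_neg_valuation (norm_pos_iff.1 y0), Padic.norm_p, ← zpow_neg_one,
      ← zpow_add₀ (Nat.cast_ne_zero.2 pp_ne), Padic.norm_le_pow_iff_norm_lt_pow_add_one]
    exact k.trans_eq (congrArg _ (by ring))
  · rw [if_pos rfl, ← br_card i c, ← tm_eq] at e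
    rw [f, mul_inv_cancel_left₀ u0]
    exact_mod_cast e

theorem ex_lk {ι : Qb →+* ℂ_[pp]} (hι : Ind ι P) : ∃ lg : Fx A B (dec P) →+ K, Lk ι lg :=
  (two hΔ h hι).imp fun _ k => k.elim fun _ k => k.1

theorem Lk.ker {ι : Qb →+* ℂ_[pp]} (hι : Ind ι P) {lg : Fx A B (dec P) →+ K} (k : Lk ι lg) (y) :
    lg y = 0 ↔ IsOfFinAddOrder y := by
  obtain ⟨l, -, a, b, -⟩ := two hΔ h hι
  exact k.uniq a ▸ b y

omit hΔ h in
theorem card_pi {I : Type} [Fintype I] (Y : I → Type) [∀ i, AddCommGroup (Y i)] :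
    Nat.card (Tp (∀ i, Y i)) = ∏ i, Nat.card (Tp (Y i)) := by
  rw [← Nat.card_pi]
  refine Nat.card_congr (Equiv.ofBijective (fun y i => ⟨y.1 i, y.2.imp fun k e => congrFun e i⟩)
    ⟨fun a b e => Subtype.ext (funext fun i => congrArg Subtype.val (congrFun e i)), fun y => ?_⟩)
  choose k e using fun i => (y i).2
  exact ⟨⟨fun i => y i, Finset.univ.sup k, funext fun i =>
    Ba.pow_up (Finset.le_sup (Finset.mem_univ i)) (e i)⟩, rfl⟩

/-- **the local input of the count** -/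
theorem all {S : Finset ℕ} {P : ℕ → Ideal (𝓞 Qb)} (o : ∀ p ∈ S, Ov p (P p)) (h2 : pp ∈ S)
    {ι : Qb →+* ℂ_[pp]} (hι : Ind ι (P pp)) {lg : Fx A B (dec (P pp)) →+ K} (k : Lk ι lg) :
    ∃ y₀ : ∀ v : S, Fx A B (dec (P v)), (∀ v, v ≠ ⟨pp, h2⟩ → y₀ v = 0) ∧
      Finite (Tp (∀ v : S, Fx A B (dec (P v)))) ∧ lg (y₀ ⟨pp, h2⟩) ≠ 0 ∧
      (∀ y, ‖lg y‖ ≤ ‖lg (y₀ ⟨pp, h2⟩)‖) ∧
      (∀ y : ∀ v : S, Fx A B (dec (P v)), ‖lg (y ⟨pp, h2⟩)‖ < ‖lg (y₀ ⟨pp, h2⟩)‖ →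
        ∃ t ∈ Tp (∀ v : S, Fx A B (dec (P v))), ∃ y', y = t + pp • y') ∧
      (Nat.card (Tp (∀ v : S, Fx A B (dec (P v)))) : ℝ) * (‖(u : K) * lg (y₀ ⟨pp, h2⟩)‖ * pp) =
        pp ^ padicValNat pp (∏ p ∈ S, tm (Wq W) p * np W p) := by
  obtain ⟨l, y, a, -, b, c, d, e⟩ := two hΔ h hι
  obtain rfl := k.uniq a
  have n : ∀ v : S, v ≠ ⟨pp, h2⟩ → v.1 ≠ pp := fun v m e => m (Subtype.ext e)
  have f : (Nat.card (Tp (∀ v : S, Fx A B (dec (P v)))) : ℝ) * (‖(u : K) * lg y‖ * pp) =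
      pp ^ padicValNat pp (∏ p ∈ S, tm (Wq W) p * np W p) := by
    rw [card_pi, ← Finset.mul_prod_erase _ _ (Finset.mem_univ ⟨pp, h2⟩), Nat.cast_mul,
      mul_right_comm, e, Finset.prod_congr rfl fun (v : S) m =>
        (odd hΔ h (o v v.2) (n v (Finset.ne_of_mem_erase m))).1, ← Nat.factorization_def _
        pp_prime, ← Nat.factorization_def _ pp_prime, Nat.factorization_prod_apply,
      ← Finset.sum_coe_sort, ← Finset.add_sum_erase _ _ (Finset.mem_univ ⟨pp, h2⟩), pow_add,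
      Finset.prod_pow_eq_pow_sum]
    · simp [Nat.factorization_def _ pp_prime]
    · intro p m
      have := Fact.mk (o p m).1
      exact mul_ne_zero (tm_eq (Wq W) p ▸ tam_ne p hΔ) (np_pos W this.out).ne'
  refine ⟨Pi.single ⟨pp, h2⟩ y, fun v m => Pi.single_eq_of_ne m _, Nat.finite_of_card_ne_zero
    fun z => ?_, ?_⟩
  · rw [z, Nat.cast_zero, zero_mul] at f
    exact absurd f (pow_ne_zero _ (Nat.cast_ne_zero.2 pp_ne)).symm
  rw [Pi.single_eq_same]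
  refine ⟨b, c, fun x m => ?_, f⟩
  have : ∀ v : S, ∃ t ∈ Tp (Fx A B (dec (P v))), ∃ y', x v = t + pp • y' := fun v => by
    by_cases q : v = ⟨pp, h2⟩
    · subst q
      exact d _ m
    · exact (odd hΔ h (o v v.2) (n v q)).2 _
  choose t t1 z t2 using this
  choose j t1 using t1
  exact ⟨t, ⟨Finset.univ.sup j, funext fun i =>
    Ba.pow_up (Finset.le_sup (Finset.mem_univ i)) (t1 i)⟩, z, funext t2⟩

omit hΔ h in
/-- the product over a set of primes which contains `pp` -/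
theorem val_prod {S : Finset ℕ} (hS : ∀ p ∈ S, p.Prime) (h2 : pp ∈ S) (hΔ : W.Δ ≠ 0)
    (h : Md (Wq W) A B u r s t) :
    (padicValNat pp (∏ p ∈ S, tm (Wq ⟨0, 0, 0, A, B⟩) p * np ⟨0, 0, 0, A, B⟩ p) : ℤ) =
      padicValNat pp (∏ p ∈ S, tm (Wq W) p * np W p) + padicValRat pp u := by
  have := ell hΔ
  have a : ∀ {W : WeierstrassCurve ℤ}, W.Δ ≠ 0 → padicValNat pp (∏ p ∈ S, tm (Wq W) p * np W p) =
      ∑ p ∈ S, padicValNat pp (tm (Wq W) p * np W p) := fun {W} k => by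
    simp only [← Nat.factorization_def _ pp_prime]
    rw [Nat.factorization_prod fun p m => @tn_ne W p ⟨hS p m⟩ k, Finsupp.finset_sum_apply]
  rw [a hΔ, a (sh_ne h.hD), Nat.cast_sum, Nat.cast_sum, Finset.sum_congr rfl fun p m =>
    @val_sh W A B u r s t p pp ⟨hS p m⟩ _ hΔ h, Finset.sum_add_distrib, Finset.sum_ite_eq', if_pos h2]

end Vale.Agent.P014U.Lc
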