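import Vale.Agent.P014U.Lc.Fx
import Vale.Agent.P014T.Lc.Jx

/-! # P014U, local points: the formal group -/

set_option linter.all false

open scoped Classical
open WeierstrassCurve WeierstrassCurve.Affine P179W NumberField

noncomputable section

namespace Vale.Agent.P014U.Lc

variable [Pp]

open Vale.Agent.P022 (Qb GQ)
open Vale.Agent.P022D.W (dec)
open Vale.Agent.P014T.Wm (Fx)
open Vale.Agent.P014U.Ah (Ind am)
open Vale.Agent.P014U.X4S.Ga (K)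
open P004M.TE (Cv Pt pa pa_some)
open P004K (Ip K1)
open P004F.Qx (Fk)

variable {A B : ℤ}

variable {P : Ideal (𝓞 Qb)} {ι : Qb →+* ℂ_[pp]} (hι : Ind ι P) {lg : Fx A B (dec P) →+ K}
include hι

theorem ip_iff (x : Qb) : Ip P x ↔ ‖ι x‖ ≤ 1 := by
  have o : ∀ {a : 𝓞 Qb}, a ∉ P → ‖ι a‖ = 1 := fun k =>
    le_antisymm (Ah.nrm_int ι _) (not_lt.1 (mt (hι _).2 k))
  refine ⟨fun ⟨a, b, c, e⟩ => ?_, fun k => ?_⟩
  · have := Ah.nrm_int ι b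
    rwa [← e, map_mul, norm_mul, o c, one_mul] at this
  obtain ⟨a, b, c, e | e⟩ := P004M.TE.dich hι.ov.2.1 pp_ne hι.ov.2.2 x
  · exact ⟨a, b, c, e⟩
  · refine ⟨b, a, fun j => ?_, by rw [mul_comm, e]⟩
    have := mul_lt_one_of_nonneg_of_lt_one_right k (norm_nonneg _) ((hι b).1 j)
    rw [← norm_mul, ← map_mul, e, o c] at this
    exact this.false

theorem k1_iff (y : Pt A B) : K1 P y ↔ KerV (nv ℂ_[pp]) (pa ι.toRatAlgHom y) := by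
  rcases y with _ | ⟨x, y, h⟩
  · exact ⟨fun _ => (map_zero (pa ι.toRatAlgHom)).symm ▸ trivial,
      fun _ _ _ _ e => absurd e.symm (Point.some_ne_zero _)⟩
  rw [pa_some]
  refine ⟨fun k e => k _ _ _ rfl ((ip_iff hι _).2 e), fun k a b h' e i => k ?_⟩
  obtain ⟨rfl, -⟩ := e
  exact (ip_iff hι _).1 i

omit hι in
theorem zf_pa (y : Pt A B) : zf (pa ι.toRatAlgHom y) = ι (P004F.Qx.zf y) := by
  rcases y with _ | ⟨x, y, h⟩
  · exact (congrArg zf (map_zero _)).trans (map_zero ι).symm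
  · rw [pa_some]
    exact ((map_div₀ ι _ _).trans (by rw [map_neg]; rfl)).symm

theorem fk_nrm {κ : ℕ} (h0 : κ ≠ 0) (y : Pt A B) :
    Fk P κ y ↔ K1 P y ∧ ‖ι (P004F.Qx.zf y)‖ ≤ ‖(κ : K)‖ := by
  rw [Fk, ip_iff hι, map_div₀, norm_div, map_natCast, ← map_natCast am, Ah.nrm_am,
    div_le_one (norm_pos_iff.2 (Nat.cast_ne_zero.2 h0))]

/-- the logarithm on the formal group -/
theorem Lk.fk (k : Lk ι lg) {κ : ℕ} (h0 : κ ≠ 0) (h4 : pp ^ 2 ∣ κ) {y : Fx A B (dec P)} (m : Fk P κ y.1) :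
    ‖lg y‖ = ‖ι (P004F.Qx.zf y.1)‖ := by
  obtain ⟨L, hL⟩ := ex_lgs A B
  obtain ⟨a, b⟩ := (fk_nrm hι h0 _).1 m
  rw [← Ah.nrm_am, k L hL, ← zf_pa]
  refine hL.norm (cfs _ A B) ((k1_iff hι _).1 a) (zf_pa (ι := ι) y.1 ▸ b.trans_lt ?_)
  obtain ⟨c, rfl⟩ := h4
  rw [← map_natCast am, Ah.nrm_am, Nat.cast_mul, norm_mul, Nat.cast_pow, norm_pow]
  exact (mul_le_of_le_one_right (by positivity) (IsUltrametricDist.norm_natCast_le_one K c)).trans_lt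
    (pow_lt_self_of_lt_one₀ (norm_pos_iff.2 (Nat.cast_ne_zero.2 pp_ne)) Padic.norm_p_lt_one one_lt_two)

theorem Lk.fk_iff (k : Lk ι lg) {κ₀ κ : ℕ} (h0 : κ₀ ≠ 0) (h4 : pp ^ 2 ∣ κ₀) {y : Fx A B (dec P)}
    (m : Fk P κ₀ y.1) (h1 : κ ≠ 0) : Fk P κ y.1 ↔ ‖lg y‖ ≤ ‖(κ : K)‖ := by
  rw [fk_nrm hι h1, k.fk hι h0 h4 m, and_iff_right m.1]

end Vale.Agent.P014U.Lc
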